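import Vale.Agent.Lib.P154Q.Nptop.Ck0
import Vale.Agent.Lib.P154Q.Nptop.Ck1
import Vale.Agent.Lib.P154Q.Nptop.Ck2
import Vale.Agent.Lib.P154Q.Nptop.Ck3
import Vale.Agent.Lib.P154Q.Nptop.Ck4
import Vale.Agent.Lib.P154Q.Nptop.Ck5
import Vale.Agent.Lib.P154Q.Nptop.Ck6
import Vale.Agent.Lib.P154Q.Nptop.Ck7
import Vale.Agent.Lib.P154Q.Nptop.Ck8
import Vale.Agent.Lib.P154Q.Nptop.Ck9
import Vale.Agent.Lib.P154Q.Nptop.Ck10
import Vale.Agent.Lib.P154Q.Nptop.Ck11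
import Vale.Agent.Lib.P154Q.Nptop.Ck12
import Vale.Agent.Lib.P154Q.Nptop.Ck13
import Vale.Agent.Lib.P154Q.Nptop.Ck14
import Vale.Agent.Lib.P154Q.Nptop.Ck15
import Vale.Agent.Lib.P154Q.Nptop.Ck16
import Vale.Agent.Lib.P154Q.Nptop.Ck17
import Vale.Agent.Lib.P154Q.Nptop.Ck18
import Vale.Agent.Lib.P154Q.Nptop.Ck19
import Vale.Agent.Lib.P154Q.Nptop.Ck20
import Vale.Agent.Lib.P154Q.Nptop.Ck21
import Vale.Agent.Lib.P154Q.Nptop.Ck22
import Vale.Agent.Lib.P154Q.Nptop.Ck23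
import Vale.Agent.Lib.P154Q.Nptop.Ck24
import Vale.Agent.Lib.P154Q.Nptop.Ck25
import Vale.Agent.Lib.P154Q.Nptop.Ck26
import Vale.Agent.Lib.P154Q.Nptop.Ck27
import Vale.Agent.Lib.P154Q.Nptop.Ck28
import Vale.Agent.Lib.P154Q.Nptop.Ck29
import Vale.Agent.Lib.P154Q.Nptop.Ck30
import Vale.Agent.Lib.P154Q.Nptop.Ck31
import Vale.Agent.Lib.P154Q.Nptop.Ck32
import Vale.Agent.Lib.P154Q.Nptop.Ck33
import Vale.Agent.Lib.P154Q.Nptop.Ck34
import Vale.Agent.Lib.P154Q.Child.Main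
import Vale.Agent.Lib.P154Q.Point

/-!
One certificate, assembled.
-/

namespace Vale.Agent.Lib.P154Q.Nptop

open Vale.Agent.Lib.P154M Vale.Agent.Lib.P154Q
open Vale.Agent.Lib.Common.Kron Vale.Agent.Lib.Common.Kron.PE

theorem hG0T : checkT D.eG0 (c 1) [56, 56, 1, 1] (.node 1 .leaf (.node 1 .leaf (.node 0 (.node 0 .leaf (.node 1 .leaf (.node 0 (.node 0 .leaf .leaf) .leaf))) (.node 0 .leaf .leaf)))) root2 = true :=
  (checkT_node hG0_0 (checkT_node hG0_1 (checkT_node (checkT_node hG0_2 hG0_3) hG0_4)))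

theorem hG1T : checkT D.eG1 (c 1) [56, 56, 1, 1] (.node 1 .leaf (.node 1 (.node 0 .leaf (.node 0 .leaf (.node 1 (.node 1 .leaf (.node 0 .leaf (.node 0 (.node 1 .leaf .leaf) (.node 1 .leaf .leaf)))) .leaf))) (.node 0 (.node 0 .leaf (.node 1 .leaf (.node 0 .leaf .leaf))) (.node 0 .leaf (.node 0 (.node 1 .leaf (.node 0 .leaf (.node 1 .leaf .leaf))) (.node 1 (.node 1 .leaf .leaf) .leaf)))))) root2 = true :=
  (checkT_node hG1_0 (checkT_node (checkT_node hG1_1 (checkT_node hG1_2 (checkT_node (checkT_node hG1_3 (checkT_node hG1_4 hG1_5)) hG1_6))) (checkT_node hG1_7 (checkT_node hG1_8 (checkT_node hG1_9 hG1_10)))))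

theorem hA1T : checkT D.eChA (c 1) [14, 13, 12, 8] (.node 0 (.node 3 (.node 3 .leaf (.node 0 (.node 1 (.node 0 (.node 3 (.node 0 (.node 1 .leaf .leaf) .leaf) (.node 1 (.node 0 .leaf .leaf) (.node 0 .leaf .leaf))) .leaf) .leaf) .leaf)) (.node 0 (.node 1 (.node 3 (.node 0 (.node 1 (.node 3 .leaf .leaf) (.node 3 (.node 0 .leaf .leaf) (.node 1 .leaf .leaf))) (.node 1 (.node 3 .leaf (.node 2 .leaf (.node 2 .leaf (.node 1 .leaf .leaf)))) (.node 3 .leaf (.node 1 .leaf .leaf)))) (.node 0 .leaf (.node 1 .leaf (.node 0 (.node 1 .leaf .leaf) (.node 1 .leaf .leaf))))) (.node 0 (.node 3 (.node 1 (.node 0 (.node 2 .leaf (.node 2 .leaf (.node 1 .leaf .leaf))) .leaf) .leaf) (.node 1 (.node 0 .leaf (.node 1 .leaf .leaf)) (.node 0 (.node 1 .leaf .leaf) (.node 2 .leaf (.node 2 .leaf (.node 1 .leaf .leaf)))))) (.node 3 .leaf (.node 1 (.node 0 (.node 1 .leaf .leaf) .leaf) .leaf)))) (.node 3 .leaf (.node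 1 (.node 0 (.node 1 .leaf .leaf) .leaf) (.node 1 .leaf (.node 0 .leaf (.node 1 .leaf (.node 0 (.node 2 .leaf (.node 2 .leaf (.node 3 .leaf (.node 1 .leaf (.node 2 .leaf (.node 2 .leaf (.node 3 .leaf (.node 0 .leaf .leaf)))))))) (.node 2 .leaf (.node 2 .leaf (.node 1 .leaf .leaf))))))))))) (.node 1 (.node 3 .leaf (.node 1 .leaf (.node 1 .leaf (.node 2 .leaf (.node 1 (.node 0 .leaf (.node 3 .leaf (.node 2 .leaf (.node 1 .leaf .leaf)))) .leaf))))) (.node 1 .leaf .leaf))) (D.rA1 mC) = true :=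
  (checkT_node (checkT_node (checkT_node hA1_0 (checkT_node (checkT_node (checkT_node (checkT_node (checkT_node hA1_1 hA1_2) (checkT_node hA1_3 hA1_4)) hA1_5) hA1_6) hA1_7)) (checkT_node (checkT_node (checkT_node (checkT_node (checkT_node hA1_8 (checkT_node hA1_9 hA1_10)) (checkT_node (checkT_node hA1_11 (checkT_node hA1_12 (checkT_node hA1_13 hA1_14))) (checkT_node hA1_15 hA1_16))) (checkT_node hA1_17 (checkT_node hA1_18 (checkT_node hA1_19 hA1_20)))) (checkT_node (checkT_node (checkT_node (checkT_node (checkT_node hA1_21 (checkT_node hA1_22 hA1_23)) hA1_24) hA1_25) (checkT_node (checkT_node hA1_26 hA1_27) (checkT_node hA1_28 (checkT_node hA1_29 (checkT_node hA1_30 hA1_31))))) (checkT_node hA1_32 (checkT_node (checkT_node hA1_33 hA1_34) hA1_35)))) (checkT_node hA1_36 (checkT_node (checkT_node hA1_37 hA1_38) (checkT_node hA1_39 (checkT_node hA1_40 (checkT_node hA1_41 (checkT_node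 (checkT_node hA1_42 (checkT_node hA1_43 (checkT_node hA1_44 (checkT_node hA1_45 (checkT_node hA1_46 (checkT_node hA1_47 (checkT_node hA1_48 hA1_49))))))) (checkT_node hA1_50 (checkT_node hA1_51 hA1_52)))))))))) (checkT_node (checkT_node hA1_53 (checkT_node hA1_54 (checkT_node hA1_55 (checkT_node hA1_56 (checkT_node (checkT_node hA1_57 (checkT_node hA1_58 (checkT_node hA1_59 hA1_60))) hA1_61))))) hA1_62))

theorem hA2T : checkT D.eChA (c 1) [14, 13, 12, 8] (.node 0 .leaf (.node 1 .leaf (.node 0 .leaf (.node 3 (.node 1 .leaf .leaf) .leaf)))) (D.rA2 mC) = true :=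
  (checkT_node hA2_0 (checkT_node hA2_1 (checkT_node hA2_2 (checkT_node hA2_3 hA2_4))))

theorem hB1T : checkT D.eChB1 (c 1) [24, 13, 12, 8] .leaf (NetD.rB1 mC) = true :=
  hB1_0

theorem hB2T : checkT D.eChB2 (c 1) [14, 13, 12, 24] (.node 0 (.node 0 (.node 0 .leaf .leaf) (.node 1 (.node 0 .leaf (.node 1 (.node 3 .leaf (.node 2 .leaf (.node 3 .leaf (.node 1 .leaf .leaf)))) (.node 3 .leaf (.node 2 .leaf (.node 3 .leaf (.node 1 .leaf .leaf)))))) (.node 0 (.node 1 (.node 2 .leaf (.node 3 .leaf (.node 3 .leaf (.node 2 .leaf (.node 1 .leaf .leaf))))) .leaf) .leaf))) .leaf) (NetD.rB2 mC) = true :=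
  (checkT_node (checkT_node hB2_0 (checkT_node (checkT_node hB2_1 (checkT_node (checkT_node hB2_2 (checkT_node hB2_3 (checkT_node hB2_4 hB2_5))) (checkT_node hB2_6 (checkT_node hB2_7 (checkT_node hB2_8 hB2_9))))) (checkT_node (checkT_node (checkT_node hB2_10 (checkT_node hB2_11 (checkT_node hB2_12 (checkT_node hB2_13 hB2_14)))) hB2_15) hB2_16))) hB2_17)

/-- The kernel checks. -/
theorem ok : D.OK mC where
  hG0 := ⟨[56, 56, 1, 1], _, hG0T⟩
  hG1 := ⟨[56, 56, 1, 1], _, hG1T⟩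
  hUB := ⟨[66, 66, 1, 1], _, Child.hUBT⟩
  hUD := ⟨[66, 66, 1, 1], _, Child.hUDT⟩
  hLA := ⟨[66, 66, 1, 1], _, Child.hLAT⟩
  hA1 := ⟨[14, 13, 12, 8], _, hA1T⟩
  hA2 := ⟨[14, 13, 12, 8], _, hA2T⟩
  hB1 := ⟨[24, 13, 12, 8], _, hB1T⟩
  hB2 := ⟨[14, 13, 12, 24], _, hB2T⟩


open Vale.Agent.Lib.P154 Vale.Agent.Lib.P154P Vale.Agent.Lib.P154.Mellin

theorem good : D.Good where
  merged := ⟨by decide, by decide⟩
  wn := by decide
  wd := by decide
  w25 := by decide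
  gd := by decide
  DW := by decide
  den := by decide
  Na := by decide
  Nc := by decide
  hG0 := by decide
  hG1 := by decide
  hUB := by decide
  hUD := by decide
  hLA := by decide
  gUB := by decide
  gUD := by decide
  gLA := by decide

theorem wb_eq : ((D.wn : ℕ) : ℝ) / (D.wd : ℕ) = (7 / 100 : ℝ) := by
  norm_num [D]

theorem hPB (w : ℝ) : evW w D.PB = D.DW * (D.pB w * Ep (7 / 8 * w)) := by
  simp only [D, evW, NetD.pB, Ep, Em]
  norm_num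
  ring

theorem hPD (w : ℝ) : evW w D.PD = D.DW * (D.pD w * Ep (3 / 4 * w)) := by
  simp only [D, evW, NetD.pD, Ep, Em]
  norm_num
  ring

theorem hKK (w : ℝ) : evW w D.KK = D.DW * (D.pB w * ((1 + 7 / 8 * w) * Em (7 / 8 * w) - 1) + D.pD w * ((1 + 3 / 4 * w) * Em (3 / 4 * w) - 1) + 1 - Ep w - D.ze w * w) := by
  simp only [D, evW, NetD.pB, NetD.pD, NetD.ze, Ep, Em]
  norm_num
  ring

theorem pB_eq (w : ℝ) : D.pB w = (29 / 40 : ℝ) + (1893 / 5000 : ℝ) * w := by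
  simp only [D, NetD.pB]
  norm_num
  ring

theorem pD_eq (w : ℝ) : D.pD w = (67 / 100 : ℝ) + (-(6613 / 10000) : ℝ) * w := by
  simp only [D, NetD.pD]
  norm_num
  ring

theorem ze_eq (w : ℝ) : D.ze w = 1 + (-(4931 / 5000) : ℝ) * w ^ 1 + (121 / 400 : ℝ) * w ^ 2 := by
  simp only [D, NetD.ze, evW]
  norm_num
  ring

theorem hpB {w : ℝ} (h0 : 0 ≤ w) (h1 : w ≤ (7 / 100 : ℝ)) : 0 ≤ D.pB w := by
  rw [pB_eq]
  nlinarith

theorem hpD {w : ℝ} (h0 : 0 ≤ w) (h1 : w ≤ (7 / 100 : ℝ)) : 0 ≤ D.pD w := by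
  rw [pD_eq]
  nlinarith

theorem hze {w : ℝ} (h0 : 0 ≤ w) (h1 : w ≤ (7 / 100 : ℝ)) : 0 ≤ D.ze w := by
  rw [ze_eq]
  nlinarith

/-- The pointwise inequality in the main region. -/
theorem point {μ w : ℝ} (hμ0 : (991 / 2000 : ℝ) ≤ μ) (hμ1 : μ ≤ (1 / 2 : ℝ)) (hw0 : 0 ≤ w) (hw1 : w ≤ (7 / 100 : ℝ)) {a : Vc}
    (ha : InS a) (hb : ∀ i, 1 / 4 < Ch (-μ) a i) :
    D.th * (sF a ^ 2 + w ^ 2) ≤ PhiP μ (D.pB w) (D.pD w) (D.ze w) w a :=
  NetD.poi_point good (by decide) (by decide) ok (by linarith) (by linarith)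
    (cmem_ofQ (a := (991 / 2000 : ℝ)) (b := (1 / 2 : ℝ)) (by norm_num [mC]) (by norm_num [mC]) hμ0 hμ1) hw0
    (by rw [wb_eq]; exact hw1) ha hb (hpB hw0 hw1) (hpD hw0 hw1) (hPB w) (hPD w) (hze hw0 hw1) (hKK w)

end Vale.Agent.Lib.P154Q.Nptop
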